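import Crest.Agent.X212.Nk89.Geo
import Crest.Agent.X212.Cyf70.Sf
import Crest.Agent.X212.Map77.Fin

-- ▼ part X212/Nk89/Pch
section

/-! Fredholm operators by patching: transplantation, local compactness, parametrices. -/

set_option autoImplicit false
set_option linter.unusedSectionVars false
noncomputable section
open scoped Manifold ContDiff Topology InnerProductSpace ENNReal
open MeasureTheory Set Function Filter

namespace Crest.Agent.X212.Nk89
open An An.Pre Sob92 Prm93 Fred93 Map77 Cyf70 Ell97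

section abs
variable {X Y : Type} [NormedAddCommGroup X] [NormedSpace ℝ X] [CompleteSpace X]
  [NormedAddCommGroup Y] [NormedSpace ℝ Y] [CompleteSpace Y]

theorem cq_fin {K : Type} [NormedAddCommGroup K] [NormedSpace ℝ K] [FiniteDimensional ℝ K]
    (a : X →L[ℝ] K) (b : K →L[ℝ] Y) : IsCompactOperator (b ∘L a) :=
  have := FiniteDimensional.proper_real K
  (isCompactOperator_of_locallyCompactSpace_dom a).clm_comp b

theorem exists_par {L : X →L[ℝ] Y} (h : L.IsFredholm) : ∃ Q : Y →L[ℝ] X,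
    Cq (Q ∘L L) (.id ℝ X) ∧ Cq (L ∘L Q) (.id ℝ Y) := by
  obtain ⟨_, K, _, π, B, -, -, hB⟩ := exists_block h
  have hz : ∀ z, B z = (L z.1 + z.2, π z.1) := fun z =>
    congrArg (fun f : X × K →L[ℝ] Y × L.ker => f z) hB
  refine ⟨.fst ℝ X K ∘L (B.symm : Y × L.ker →L[ℝ] X × K) ∘L .inl ℝ Y L.ker,
    .of_cpt (cq_fin π (-(.fst ℝ X K ∘L (B.symm : Y × L.ker →L[ℝ] X × K) ∘L .inr ℝ Y L.ker)))
      fun x => ?_,
    .of_cpt (cq_fin (.snd ℝ X K ∘L (B.symm : Y × L.ker →L[ℝ] X × K) ∘L .inl ℝ Y L.ker)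
      (-K.subtypeL)) fun y => ?_⟩
  · have e : B.symm (L x, 0) = (x, 0) - B.symm (0, π x) := by
      rw [ContinuousLinearEquiv.symm_apply_eq, map_sub, hz, B.apply_symm_apply]; simp
    change (B.symm (L x, 0)).1 = x + -(B.symm (0, π x)).1
    rw [e, Prod.fst_sub, sub_eq_add_neg]
  · have e := congrArg Prod.fst ((hz _).symm.trans (B.apply_symm_apply (y, 0)))
    exact eq_add_neg_of_add_eq e

theorem isClosed_cq (B : X →L[ℝ] Y) : IsClosed {A | Cq A B} :=
  (isClosed_setOfPred_isCompactOperator (𝕜₁ := ℝ) (σ₁₂ := .id ℝ)).preimage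
    (continuous_id.sub continuous_const)

variable {α : Type} [Fintype α] {X' Y' : α → Type} [∀ a, NormedAddCommGroup (X' a)]
  [∀ a, NormedSpace ℝ (X' a)] [∀ a, CompleteSpace (X' a)] [∀ a, NormedAddCommGroup (Y' a)]
  [∀ a, NormedSpace ℝ (Y' a)] [∀ a, CompleteSpace (Y' a)] {A B : X →L[ℝ] Y}
  {A' : ∀ a, X' a →L[ℝ] Y' a} {r : ∀ a, X →L[ℝ] X' a} {r' : ∀ a, Y →L[ℝ] Y' a}
  {e : ∀ a, X' a →L[ℝ] X} {e' : ∀ a, Y' a →L[ℝ] Y} {s : X →L[ℝ] X} {s' : Y →L[ℝ] Y}

theorem cq_patch (h : ∀ a, Cq (r' a ∘L A) (r' a ∘L B)) (h0 : Cq (s' ∘L A) (s' ∘L B))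
    (h6 : ∀ y, s' y + ∑ a, e' a (r' a y) = y) : Cq A B :=
  (h0.add (Cq.sum Finset.univ fun a _ => (h a).left (e' a))).congr
    (fun x => by simp [h6]) fun x => by simp [h6]

theorem fr_patch (hA : ∀ a, (A' a).IsFredholm) (h1 : ∀ a, Cq (r' a ∘L A) (A' a ∘L r a))
    (h2 : ∀ a, Cq (A ∘L e a) (e' a ∘L A' a)) {Q Q' : Y →L[ℝ] X} (h3 : Cq (Q ∘L A) s)
    (h4 : Cq (A ∘L Q') s') (h5 : ∀ x, s x + ∑ a, e a (r a x) = x)
    (h6 : ∀ y, s' y + ∑ a, e' a (r' a y) = y) : A.IsFredholm := by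
  choose P hP hP' using fun a => exists_par (hA a)
  refine isFredholm_of_cq (Q := Q + ∑ a, e a ∘L P a ∘L r' a) (Q' := Q' + ∑ a, e a ∘L P a ∘L r' a)
    ((h3.add (Cq.sum Finset.univ fun a _ => ((((h1 a).left (P a)).trans
      ((hP a).right (r a))).left (e a)))).congr (fun x => by simp) fun x => by simp [h5])
    ((h4.add (Cq.sum Finset.univ fun a _ => (((h2 a).right (P a ∘L r' a)).trans
      (((hP' a).left (e' a)).right (r' a))))).congr (fun x => by simp) fun x => by simp [h6])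

end abs

variable {E : Type} [NormedAddCommGroup E] [NormedSpace ℝ E] [FiniteDimensional ℝ E]
  [MeasurableSpace E] [BorelSpace E]
  {HM : Type} [TopologicalSpace HM] {I : ModelWithCorners ℝ E HM} [I.Boundaryless]
  {M : Type} [TopologicalSpace M] [ChartedSpace HM M] [IsManifold I ∞ M]
  [MeasurableSpace M] [T2Space M] [BorelSpace M] [SecondCountableTopology M]
  {E' : Type} [NormedAddCommGroup E'] [NormedSpace ℝ E'] [FiniteDimensional ℝ E']
  [MeasurableSpace E'] [BorelSpace E']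
  {HM' : Type} [TopologicalSpace HM'] {I' : ModelWithCorners ℝ E' HM'} [I'.Boundaryless]
  {M' : Type} [TopologicalSpace M'] [ChartedSpace HM' M'] [IsManifold I' ∞ M']
  [MeasurableSpace M'] [T2Space M'] [BorelSpace M'] [SecondCountableTopology M']
  {ι : Type} [Fintype ι]
  {V W : Type} [NormedAddCommGroup V] [InnerProductSpace ℝ V] [FiniteDimensional ℝ V]
  [NormedAddCommGroup W] [InnerProductSpace ℝ W] [FiniteDimensional ℝ W]
  {X X' : Type} [NormedAddCommGroup X] [NormedSpace ℝ X] [NormedAddCommGroup X'] [NormedSpace ℝ X']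
  {j k : ℕ}

/-! ### local compactness -/

section lc
variable {F : Pre I M ι} {p : M → V →L[ℝ] V} {q : M → W →L[ℝ] W} {A B : X →L[ℝ] F.H k q}

/-- compact after cutting off -/
def LC (A : X →L[ℝ] F.H k q) : Prop :=
  ∀ χ : M → ℝ, Sm I χ → HasCompactSupport χ → Cq (smulH F k q χ ∘L A) 0

/-- small at infinity -/
def Sml (A : X →L[ℝ] F.H k q) : Prop :=
  ∀ ε > 0, ∃ χ : M → ℝ, Sm I χ ∧ HasCompactSupport χ ∧ ‖A - smulH F k q χ ∘L A‖ ≤ ε

theorem LC.cq (h : LC (A - B)) (h' : Sml (A - B)) : Cq A B :=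
  Cq.of_approx fun ε hε => let ⟨χ, h1, h2, h3⟩ := h' ε hε; ⟨_, h χ h1 h2, h3⟩

theorem LC.congr (h : LC A) (e : ∀ x, B x = A x) : LC B := ContinuousLinearMap.ext e ▸ h

theorem LC.add (h : LC A) (h' : LC B) : LC (A + B) := fun χ h1 h2 =>
  ((h χ h1 h2).add (h' χ h1 h2)).congr (fun x => by simp) fun x => by simp

theorem lc_incl (K : X →L[ℝ] F.H (k + 1) q) : LC (F.incl (k + 1) k q ∘L K) := fun _ h1 h2 =>
  .zero ((Cht98.rellich_smul h1 h2 k.lt_succ_self).comp_clm K)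

theorem incl_smulH {χ : M → ℝ} (hχ : F.Cb χ) (h : j ≤ k) (x : F.H k p) :
    F.incl k j p (smulH F k p χ x) = smulH F j p χ (F.incl k j p x) :=
  Rep_incl (rep_smulH hχ) (rep_smulH hχ) h h x

theorem norm_le_of_sec {A : F.H k p →L[ℝ] X} {c : ℝ} (hc : 0 ≤ c)
    (h : ∀ u, ‖A (F.toH k p u)‖ ≤ c * ‖F.toH k p u‖) : ‖A‖ ≤ c :=
  A.opNorm_le_bound hc (H_le (by fun_prop) (by fun_prop) h)

/-- multiplication by a coefficient which depends linearly on a decaying function -/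
theorem cq_mul {U : Type} [NormedAddCommGroup U] [InnerProductSpace ℝ U] [FiniteDimensional ℝ U]
    {r : M → U →L[ℝ] U} {S : ℝ} (hS : Sup F S) (L : U →L[ℝ] V →L[ℝ] W) (h : F.H (k + 4) r)
    (hh : Sm I (F.val _ _ h)) : Cq (F.mulH k p (triv M W) (fun x => L (F.val _ _ h x)) ∘L
      F.incl (k + 1) k p) 0 := by
  have c1 : 0 ≤ cK ι k * (‖L‖ * √|S|) := by have := cK_nonneg (ι := ι) k; positivity
  refine Cq.of_approx fun ε hε => ?_
  obtain ⟨u, hu⟩ := Metric.denseRange_iff.1 (F.dense_toH (k + 4) r) h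
    (ε / (cK ι k * (‖L‖ * √|S|) + 1)) (by positivity)
  have e : F.val _ _ (h - F.toH _ r u) = F.val _ _ h - u.1 := by
    rw [val_sub, val_toH hS (by omega)]
  have s1 : Sm I fun x => L (u.1 x) := L.contMDiff.comp u.2.1
  have s2 : Sm I (F.val _ _ (h - F.toH _ r u)) := e ▸ hh.sub u.2.1
  have c2 : HasCompactSupport fun x => L (u.1 x) := u.2.2.1.comp_left (map_zero L)
  obtain ⟨r2, n2⟩ := rep_mulH' (F := F) (p := p) (L.contMDiff.comp s2)
    (CB_clm L s2 (CB_val hS k le_rfl (h - F.toH _ r u))) (.triv _)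
  have r1 := rep_mulH (k := k) (p := p) (Cb_of_hcs (F := F) s1 c2) (.triv _)
  refine ⟨_, .zero (Cht98.rellich_mul (F := F) s1 c2 (.triv _) k.lt_succ_self), ?_⟩
  have e2 : F.mulH k p (triv M W) (fun x => L (F.val _ _ h x)) = _ :=
    (liftT_congr fun v => funext fun x => by simp [e]).trans (RepT_add r1 r2).liftT_eq
  rw [e2, sub_zero, ContinuousLinearMap.add_comp, add_sub_cancel_left]
  refine (ContinuousLinearMap.opNorm_comp_le _ _).trans ((mul_le_mul n2 (rep_incl' k.le_succ).2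
    (norm_nonneg _) (mul_nonneg (cK_nonneg _) (abs_nonneg _))).trans ?_)
  rw [dist_eq_norm, lt_div_iff₀ (by positivity)] at hu
  rw [mul_one, abs_of_nonneg (by positivity)]
  have := norm_nonneg (h - F.toH _ r u)
  nlinarith

end lc

/-! ### parametrices of an elliptic operator -/

section par
variable {ι' : Type} [Fintype ι'] {F : Fr I M ι'} {G : Fr I M ι} (h : Tw F G) {A : Op M ι V W}
  (hA : Nc F.toPre G.P A) (hc : A.Cliff G)
include h hA hc

theorem exists_left (j : ℕ) : ∃ (Q : F.H (j + 1) A.q →L[ℝ] F.H (j + 2) A.p)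
    (R : F.H (j + 1) A.p →L[ℝ] F.H (j + 2) A.p), ∀ u,
      Q (LH F.toPre G.toPre (j + 1) A.p A.q A u) + R (F.incl (j + 2) (j + 1) A.p u) = u := by
  obtain ⟨C, h1, h2⟩ := h.good hA
  let P := par h1 h2 hc
  refine ⟨((chg (j + 2) A.p h.cmp).symm : _ →L[ℝ] _) ∘L P.G j ∘L P.Ls j ∘L
      (chg (j + 1) A.q h.cmp : _ →L[ℝ] _), ((chg (j + 2) A.p h.cmp).symm : _ →L[ℝ] _) ∘L P.G j ∘L
      P.i j ∘L (chg (j + 1) A.p h.cmp : _ →L[ℝ] _), fun u => ?_⟩
  simp only [ContinuousLinearMap.comp_apply, ContinuousLinearEquiv.coe_coe, ← map_add]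
  rw [ContinuousLinearEquiv.symm_apply_eq, h.chg_LH hA, chg_incl h.cmp (j + 1).le_succ]
  exact (congrArg (P.G j) (add_comm _ _)).trans (P.G_Q j _)

theorem exists_right (k : ℕ) : ∃ (Q : F.H k A.q →L[ℝ] F.H (k + 1) A.p)
    (R : F.H k A.q →L[ℝ] F.H (k + 1) A.q), ∀ f,
      LH F.toPre G.toPre k A.p A.q A (Q f) + F.incl (k + 1) k A.q (R f) = f := by
  obtain ⟨C, h1, h2⟩ := h.good hA
  let P := (par h1 h2 hc).swap
  refine ⟨((chg (k + 1) A.p h.cmp).symm : _ →L[ℝ] _) ∘L P.L (k + 1) ∘L P.G k ∘L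
      (chg k A.q h.cmp : _ →L[ℝ] _), ((chg (k + 1) A.q h.cmp).symm : _ →L[ℝ] _) ∘L P.i (k + 1) ∘L
      P.G k ∘L (chg k A.q h.cmp : _ →L[ℝ] _), fun f => (chg k A.q h.cmp).injective ?_⟩
  simp only [ContinuousLinearMap.comp_apply, ContinuousLinearEquiv.coe_coe]
  rw [map_add, h.chg_LH hA, chg_incl h.cmp k.le_succ, ContinuousLinearEquiv.apply_symm_apply,
    ContinuousLinearEquiv.apply_symm_apply]
  exact (add_comm _ _).trans (P.Q_G k _)

end par

/-! ### transplantation -/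

section tp
variable {F : Pre I M ι} {F' : Pre I' M' ι} {φ : OpenPartialHomeomorph M M'} {θ η : M → ℝ}
  {θ' η' : M' → ℝ} {p : M → V →L[ℝ] V} {p' : M' → V →L[ℝ] V}

variable (F F' φ k p' p θ') in
/-- cut off and pull back -/
def tp : F'.H k p' →L[ℝ] F.H k p := trH F F' φ k p' p fun y => θ' y • ContinuousLinearMap.id ℝ V

namespace Ct
variable (h : Ct F F' φ θ θ') (hp : ∀ x ∈ φ.source, p x = p' (φ x))
include h

theorem off {x : M} (hx : x ∉ φ.source) : θ x = 0 :=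
  image_eq_zero_of_notMem_tsupport fun e => hx (h.adm.1 e)

include hp

theorem rep : F'.RepT F (tp k F F' φ θ' p p') fun u => pull φ fun y => θ' y • u y := by
  obtain ⟨C, hC⟩ := Cb_smul h.cb' (Cb_const (F := F') (ContinuousLinearMap.id ℝ V))
  exact (rep_trH h.iso hC.1 (hC.2 k) ((tsupport_smul_subset_left _ _).trans h.adm'.1)
    fun x hx v hv => by simp [hp x hx, hv]).1

theorem incl (hj : j ≤ k) (x : F'.H k p') :
    F.incl k j p (tp k F F' φ θ' p p' x) = tp j F F' φ θ' p p' (F'.incl k j p' x) :=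
  DFunLike.congr_fun (RepT_eq (RepT_comp (rep_incl hj) (h.rep hp))
    (RepT_comp (h.rep hp) (rep_incl hj)) fun _ => rfl) x

theorem val {S S' : ℝ} (hS : Sup F S) (hS' : Sup F' S') (hk : 4 ≤ k) (u : F'.H k p') (x : M) :
    F.val k p (tp k F F' φ θ' p p' u) x = θ x • F'.val k p' u (φ x) := by
  refine H_eq (f := fun u => F.ev k p x (tp k F F' φ θ' p p' u))
    (g := fun u => θ x • F'.ev k p' (φ x) u) (by fun_prop) (by fun_prop) (fun u => ?_) u
  rw [RepT_toH (h.rep hp), (ev_spec hS hk x).1, (ev_spec hS' hk _).1]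
  by_cases hx : x ∈ φ.source
  · simp only [pull_of_mem hx, h.eq x hx]
  · simp only [pull_of_notMem hx, h.off hx, zero_smul]

end Ct

variable (φ) in
/-- operators with the same symbol -/
structure ORel (G : Pre I M ι) (G' : Pre I' M' ι) (A : Op M ι V W) (A' : Op M' ι V W) : Prop where
  iso : Iso G G' φ
  p : ∀ x ∈ φ.source, A.p x = A'.p (φ x)
  q : ∀ x ∈ φ.source, A.q x = A'.q (φ x)
  σ : ∀ a, ∀ x ∈ φ.source, A.σ a x = A'.σ a (φ x)

theorem ORel.symm {G : Pre I M ι} {G' : Pre I' M' ι} {A : Op M ι V W} {A' : Op M' ι V W}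
    (h : ORel φ G G' A A') : ORel φ.symm G' G A' A :=
  ⟨iso_symm h.iso, fun x hx => by rw [h.p _ (φ.map_target hx), φ.right_inv hx],
    fun x hx => by rw [h.q _ (φ.map_target hx), φ.right_inv hx],
    fun a x hx => by rw [h.σ a _ (φ.map_target hx), φ.right_inv hx]⟩

end tp

section comm
variable {F G : Fr I M ι} {F' G' : Fr I' M' ι} {φ : OpenPartialHomeomorph M M'} {θ : M → ℝ}
  {θ' : M' → ℝ} {A : Op M ι V W} {A' : Op M' ι V W}

/-- transplantation commutes with the operators up to order zero -/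
theorem comm_tp (h : Ct F.toPre F'.toPre φ θ θ') (t : Tw F G) (t' : Tw F' G')
    (hA : Nc F.toPre G.P A) (hA' : Nc F'.toPre G'.P A') (o : ORel φ G.toPre G'.toPre A A') :
    ∃ K, tp k F.toPre F'.toPre φ θ' A.q A'.q ∘L LH F'.toPre G'.toPre k A'.p A'.q A' =
      LH F.toPre G.toPre k A.p A.q A ∘L tp (k + 1) F.toPre F'.toPre φ θ' A.p A'.p +
        F.incl (k + 1) k A.q ∘L K := by
  have sθ := h.cb.choose_spec.1
  have sθ' := h.cb'.choose_spec.1
  obtain ⟨C, hC⟩ := Cb_smul h.cb hA.B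
  have a1 : Adm φ.symm (tsupport fun x => θ x • A.B x) :=
    h.adm.mono (isClosed_tsupport _) (tsupport_smul_subset_left _ _)
  have c1 : F'.Cb (pull φ.symm fun x => θ x • A.B x) :=
    ⟨_, sm_pull (iso_symm h.iso) hC.1 a1, fun k => CB_pull (iso_symm h.iso) k hC.1 a1 (hC.2 k)⟩
  have c2 : ∀ a, F'.Cb (G'.D a θ') := fun a => t'.cmp.Cb_iff.2 (Cb_D (t'.cmp.Cb_iff.1 h.cb') a)
  obtain ⟨C', hf⟩ := Cb_sub (Cb_sub (Cb_smul h.cb' hA'.B) c1)
    (Cb_sum Finset.univ fun a _ => Cb_smul (c2 a) (hA'.σ a))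
  have e1 : ∀ x ∈ φ.source, pull φ.symm (fun x => θ x • A.B x) (φ x) = θ' (φ x) • A.B x :=
    fun x hx => by rw [pull_of_mem (φ := φ.symm) (φ.map_source hx), φ.left_inv hx, h.eq x hx]
  refine ⟨_, RepT_eq (RepT_comp (h.rep o.q) (t'.rep hA' k)) (RepT_add (RepT_comp (t.rep hA k)
    (h.rep o.p)) (RepT_comp (rep_incl k.le_succ) (rep_trH h.iso hf.1 (hf.2 (k + 1))
      ((closure_minimal (support_subset_iff'.2 fun y e => ?_) (isClosed_tsupport θ')).trans
        h.adm'.1) fun x hx v hv => ?_).1)) fun u => funext fun x => ?_⟩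
  · have e0 := image_eq_zero_of_notMem_tsupport e
    have e2 : ∀ a, G'.D a θ' y = 0 := fun a =>
      image_eq_zero_of_notMem_tsupport fun k => e (G'.tsupport_D _ a k)
    by_cases hy : y ∈ φ.target
    · simp [e0, e2, pull_of_mem (φ := φ.symm) hy, ← h.symm.eq y hy]
    · simp [e0, e2, pull_of_notMem (φ := φ.symm) hy]
  · simp [e1 x hx, hA.alg.qB, ← o.σ _ x hx, hA.alg.qσ, o.q x hx ▸ hA'.alg.qB (φ x) v]
  · have su : Sm I' fun y => θ' y • u.1 y := sθ'.smul u.2.1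
    have au : Adm φ (tsupport fun y => θ' y • u.1 y) :=
      h.adm'.mono (isClosed_tsupport _) (tsupport_smul_subset_left _ _)
    by_cases hx : x ∈ φ.source
    · have d : ∀ a, G.D a (pull φ fun y => θ' y • u.1 y) x =
          G'.D a θ' (φ x) • u.1 (φ x) + θ' (φ x) • G'.D a u.1 (φ x) := fun a =>
        (iso_D' o.iso a su (fun _ hx => pull_of_mem hx _) hx).trans
          (dv_smul (md sθ' _) (md u.2.1 _))
      simp only [Pi.add_apply, id, pull_of_mem hx, Pre.op, d, o.σ _ x hx, Pi.sub_apply, e1 x hx,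
        _root_.sub_apply, _root_.smul_apply, _root_.sum_apply, map_add, map_smul,
        Finset.sum_add_distrib, smul_add, Finset.smul_sum]
      abel
    · have := image_eq_zero_of_notMem_tsupport fun e => hx (au.tsupport_pull
        (tsupport_op (F := G.toPre) A.σ A.B _ e)).1
      simp only [Pi.add_apply, id, pull_of_notMem hx, this, add_zero]

theorem ct_refl {F : Pre I M ι} {θ : M → ℝ} (h : F.Cb θ) : Ct F F (.refl M) θ θ :=
  have a : Adm (.refl M) (tsupport θ) := ⟨subset_univ _, by simpa using isClosed_tsupport θ⟩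
  ⟨⟨contMDiffOn_id, contMDiffOn_id, fun a x _ => DFunLike.congr_fun (mfderiv_id (I := I)) _,
    by simp⟩, h, h, a, a, fun _ _ => rfl⟩

theorem tp_refl {F : Pre I M ι} {θ : M → ℝ} (h : F.Cb θ) (p : M → V →L[ℝ] V) :
    tp k F F (.refl M) θ p p = smulH F k p θ :=
  RepT_eq ((ct_refl h).rep fun _ _ => rfl) (rep_smulH h) fun _ => funext fun x =>
    pull_of_mem (mem_univ x) _

theorem comm_smul (h : F.Cb θ) (t : Tw F G) (hA : Nc F.toPre G.P A) :
    ∃ K, smulH F.toPre k A.q θ ∘L LH F.toPre G.toPre k A.p A.q A =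
      LH F.toPre G.toPre k A.p A.q A ∘L smulH F.toPre (k + 1) A.p θ + F.incl (k + 1) k A.q ∘L K := by
  rw [← tp_refl h, ← tp_refl h]
  exact comm_tp (ct_refl h) t t hA hA ⟨(ct_refl (Cb_const (F := G.toPre) (0 : ℝ))).iso,
    fun _ _ => rfl, fun _ _ => rfl, fun _ _ _ => rfl⟩

/-- the difference of the transplanted operators is locally compact -/
theorem lc_tp (h : Ct F.toPre F'.toPre φ θ θ') (t : Tw F G) (t' : Tw F' G')
    (hA : Nc F.toPre G.P A) (hA' : Nc F'.toPre G'.P A') (o : ORel φ G.toPre G'.toPre A A')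
    {T : F.H (k + 1) A.p →L[ℝ] F.H k A.q} {T' : F'.H (k + 1) A'.p →L[ℝ] F'.H k A'.q}
    (hT : ∃ K, T = LH F.toPre G.toPre k A.p A.q A + F.incl (k + 1) k A.q ∘L K)
    (hT' : ∃ K, T' = LH F'.toPre G'.toPre k A'.p A'.q A' + F'.incl (k + 1) k A'.q ∘L K) :
    LC (tp k F.toPre F'.toPre φ θ' A.q A'.q ∘L T' -
      T ∘L tp (k + 1) F.toPre F'.toPre φ θ' A.p A'.p) := by
  obtain ⟨K, rfl⟩ := hT
  obtain ⟨K', rfl⟩ := hT'
  obtain ⟨K₁, e⟩ := comm_tp (k := k) h t t' hA hA' o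
  refine (lc_incl (K₁ + tp (k + 1) F.toPre F'.toPre φ θ' A.q A'.q ∘L K' -
    K ∘L tp (k + 1) F.toPre F'.toPre φ θ' A.p A'.p)).congr fun x => ?_
  have := DFunLike.congr_fun e x
  simp only [_root_.sub_apply, _root_.add_apply, ContinuousLinearMap.comp_apply, map_add, map_sub,
    h.incl o.q k.le_succ] at this ⊢
  rw [this]; abel

end comm

end Crest.Agent.X212.Nk89
end
end

-- ▼ part X212/Nk89/Dic

/-! The linearisation as one operator between Sobolev spaces; derivatives of local estimates. -/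

set_option autoImplicit false
set_option linter.unusedSectionVars false
noncomputable section
open scoped Manifold ContDiff Topology InnerProductSpace ENNReal
open MeasureTheory Set Function Filter

namespace Crest.Agent.X212.Nk89
open An An.Pre Sob92 Prm93 Fred93 Mod61 Map77 Nd18 Cyf70 Ell97

/-- a small map has a small derivative -/
theorem deriv_small {X Y Z γ : Type} [NormedAddCommGroup X] [NormedSpace ℝ X] [NormedAddCommGroup Y]
    [NormedSpace ℝ Y] [NormedAddCommGroup Z] [NormedSpace ℝ Z] {l : Filter γ} {g : X → Y}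
    {A : X →L[ℝ] Y} (hg : HasFDerivAt g A 0) {b : γ → Y →L[ℝ] Z} {N : ℝ} (hb : ∀ c, ‖b c‖ ≤ N)
    {S : Set X} (hS : ∀ w ∈ S, ∀ s : ℝ, s • w ∈ S)
    (h : ∀ ε > 0, ∀ᶠ c in l, ∀ w ∈ S, ‖w‖ ≤ 1 → ‖b c (g w)‖ ≤ ε) {ε : ℝ} (hε : 0 < ε) :
    ∀ᶠ c in l, ∀ w ∈ S, ‖b c (A w)‖ ≤ ε * ‖w‖ := by
  have n0 := abs_nonneg N
  obtain ⟨τ, τ0, hτ⟩ := Metric.eventually_nhds_iff.1
    (hg.isLittleO.def (c := ε / (2 * (|N| + 1))) (by positivity))
  set σ := min (τ / 2) 1
  have σ0 : 0 < σ := by positivity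
  filter_upwards [h (ε * σ / 4) (by positivity)] with c hc w hw
  rcases eq_or_ne w 0 with rfl | w0
  · simp
  have wp := norm_pos_iff.2 w0
  have e : ‖(σ / ‖w‖) • w‖ = σ := by
    rw [norm_smul, Real.norm_of_nonneg (by positivity), div_mul_cancel₀ _ wp.ne']
  have h1 := hτ (y := (σ / ‖w‖) • w) (by
    rw [dist_zero_right, e]; exact (min_le_left _ _).trans_lt (by linarith))
  have h2 := hc _ (hS w hw (σ / ‖w‖)) (e.le.trans (min_le_right _ _))
  have h3 := hc 0 (by simpa using hS w hw 0) (by simp)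
  rw [sub_zero, e] at h1
  have h4 := ((b c).le_opNorm _).trans (mul_le_mul ((hb c).trans ((le_abs_self N).trans
    (le_add_of_nonneg_right zero_le_one))) h1 (norm_nonneg _) (by positivity))
  have h5 : ‖b c (A ((σ / ‖w‖) • w))‖ ≤ ε * σ := by
    rw [show b c (A ((σ / ‖w‖) • w)) = b c (g ((σ / ‖w‖) • w)) - b c (g 0) -
      b c (g ((σ / ‖w‖) • w) - g 0 - A ((σ / ‖w‖) • w)) by simp only [map_sub]; abel]
    refine (norm_sub_le _ _).trans ((add_le_add ((norm_sub_le _ _).trans (add_le_add h2 h3))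
      h4).trans (le_of_eq (by field_simp; ring)))
  rw [map_smul, map_smul, norm_smul, Real.norm_of_nonneg (by positivity), div_mul_eq_mul_div,
    div_le_iff₀ wp] at h5
  nlinarith

variable {E : Type} [NormedAddCommGroup E] [NormedSpace ℝ E] [FiniteDimensional ℝ E]
  [MeasurableSpace E] [BorelSpace E]
  {HM : Type} [TopologicalSpace HM] {I : ModelWithCorners ℝ E HM} [I.Boundaryless]
  {M : Type} [TopologicalSpace M] [ChartedSpace HM M] [IsManifold I ∞ M]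
  [MeasurableSpace M] [T2Space M] [BorelSpace M] [SecondCountableTopology M]
  {ι κ : Type} [Fintype ι] [Fintype κ] {lam : Type} [Fintype lam]
  {T : Type} [NormedAddCommGroup T] [NormedSpace ℝ T]

section val
variable {V W : Type} [NormedAddCommGroup V] [InnerProductSpace ℝ V] [FiniteDimensional ℝ V]
  [NormedAddCommGroup W] [InnerProductSpace ℝ W] [FiniteDimensional ℝ W] {F : Pre I M ι} {S : ℝ}
  {k : ℕ} {p : M → V →L[ℝ] V} {q : M → W →L[ℝ] W} (hS : Sup F S) (hk : 4 ≤ k)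
include hS hk

theorem val_iH1 (u : F.H k p) (x : M) : F.val k _ (iH1 F k p q u) x = i1 V W (F.val k p u x) :=
  val_mulH hS hk (Cb_const _) maps_i1 u x

theorem val_iH2 (u : F.H k q) (x : M) : F.val k _ (iH2 F k p q u) x = i2 V W (F.val k q u x) :=
  val_mulH hS hk (Cb_const _) maps_i2 u x

end val

theorem row_add [DecidableEq κ] (b : Bd M ι κ) (G : Fr I M ι) (hp : Prj b.pC)
    (c u : M → Cf ι κ) (v : Sec I b.pC) (x : M) :
    G.op ((b.d0 G (c + u)).adj G).σ ((b.d0 G (c + u)).adj G).B v x =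
      G.op ((b.d0 G c).adj G).σ ((b.d0 G c).adj G).B v x +
        b.g x ((trL _ (Cf ι κ) ∘L l0) (u x) (v.1 x)) := by
  have e : ∀ A : HS κ →L[ℝ] Cf ι κ, Op.tr (b.pC x ∘L A) (v.1 x) = Op.tr A (v.1 x) :=
    fun A => ext_inner_left ℝ fun ξ => by
      rw [inner_tr, inner_tr, ContinuousLinearMap.comp_apply, hp.symm]
      exact congrArg _ (v.2.2.2 x)
  simp only [Pre.op, Op.adj, Bd.d0, Map77.cut, Pi.add_apply, ContinuousLinearMap.comp_apply,
    _root_.sub_apply, e, trL_apply, map_sub]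
  simp only [← trL_apply, map_add, _root_.add_apply]
  abel

theorem rep_RR [DecidableEq κ] {b : Bd M ι κ} {F : Fr I M lam} {G : Fr I M ι} (H : b.Hy F G) (k : ℕ)
    {c : M → Cf ι κ} (hc : F.Cb c) : F.RepT F.toPre (b.RR F.toPre G k c)
      (G.op ((b.d0 G c).adj G).σ ((b.d0 G c).adj G).B) := H.rep (H.nc_row hc) k

theorem cq_RR [DecidableEq κ] {b : Bd M ι κ} {F : Fr I M lam} {G : Fr I M ι} (H : b.Hy F G) {k : ℕ}
    {c : M → Cf ι κ} (hc : F.Cb c) (w : F.H (k + 4) b.pC) (hw : F.Cb (F.val _ _ w)) :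
    Cq (b.RR F.toPre G k (c + F.val _ _ w)) (b.RR F.toPre G k c) := by
  have q := (cq_mul H.sup (trL (HS κ) (Cf ι κ) ∘L l0) w hw.choose_spec.1 (k := k)
    (p := b.pC)).left (F.mulH k _ b.g b.g)
  rw [ContinuousLinearMap.comp_zero] at q
  have hc' : F.Cb (c + F.val _ _ w) := Cb_add hc hw
  have r := RepT_comp (rep_mulH (k := k) H.cg (.of_left H.g.idem (p := triv M (HS κ))))
    (RepT_comp (rep_mulH (k := k) (p := b.pC) (Cb_clm (trL (HS κ) (Cf ι κ) ∘L l0) hw) (.triv _))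
      (rep_incl k.le_succ))
  exact .of_cpt q.cpt (DFunLike.congr_fun (RepT_eq (rep_RR H k hc') (RepT_add (rep_RR H k hc) r)
    fun u => funext fun x => row_add b G H.prjC _ _ u x))

/-! ### the operator -/

section tt
variable {𝔉 : Fam I M ι lam T} {o : Ref 𝔉} {r n m : ℕ} (k : ℕ)

/-- the gauge row at `u` and the derivative of `f` at `v` -/
def TG (f : o.C r k → o.Y n m k) (v : o.C r k) (t : T) (u : M → Cf ι (Fin o.m.N)) :
    𝔉.F0.H (k + 1) (bd o).pC →L[ℝ] 𝔉.F0.H k (ps o.Pg (bd o).pE) :=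
  iH1 _ k o.Pg _ ∘L (bd o).RR 𝔉.F0.toPre (Fs 𝔉 t) k u +
    iH2 _ k o.Pg _ ∘L sY o n m k ∘L fderiv ℝ f v ∘L sC' o r k t

/-- the gauge fixed linearisation at `y` -/
abbrev TT (f : o.C r k → o.Y n m k) (y : Pnt o r) :
    𝔉.F0.H (k + 1) (bd o).pC →L[ℝ] 𝔉.F0.H k (ps o.Pg (bd o).pE) := TG k f (y.pt k) y.t (uy y)

variable {k} {f : o.C r k → o.Y n m k} {e : T → PtX M ι lam r n m} {d : ℤ} (h : 𝔉.OK)
include h

theorem lop_iff (y : Pnt o r) : Fr (lop k f y) d ↔ Fr (TT k f y) d := by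
  let a := (sumH 𝔉.F0.toPre (k + 1) o.P1 o.Pp).symm.trans (SE (k + 1) o h y.ht)
  let b := ((sumH 𝔉.F0.toPre k o.Pg (bd o).pE).trans ((ContinuousLinearEquiv.refl ℝ _).prodCongr
    (sumH _ k o.Pm o.P2))).trans (ContinuousLinearEquiv.prodComm ℝ _ _)
  have e : ∀ x, lop k f y x = b (TT k f y (a x)) := fun x => by
    have e1 : sC' o r k y.t (a x) = inF o r k x :=
      sC_inj h y.ht (sC_sC' h y.ht _) (sC'_z _ _)
    simp only [b, TG, _root_.add_apply, ContinuousLinearMap.comp_apply, e1, sY_apply,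
      ContinuousLinearEquiv.trans_apply, sumH_apply, map_add, fH_iH1, fH_iH2, sH_iH1, sH_iH2,
      add_zero, zero_add, ContinuousLinearEquiv.prodCongr_apply, ContinuousLinearEquiv.refl_apply,
      map_zero, Prod.mk_add_mk, ContinuousLinearEquiv.prodComm_apply, Prod.swap_prod_mk]
    rfl
  exact ⟨fun H => (H.conj a.symm b.symm).congr fun x => by simp [e],
    fun H => (H.conj a b).congr e⟩

theorem idx_iff (hk : 4 ≤ k) (hf : RepF e f) (y : Pnt o r) : Idx k e y d ↔ Fr (TT k f y) d :=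
  ⟨fun H => (lop_iff h y).1 (H.all h hk hf), fun H => ⟨f, hf, (lop_iff h y).2 H⟩⟩

/-- the local part -/
theorem TG_eq (hk : 7 ≤ k) (he : Aff o (Fs 𝔉) r n m e) (hf : RepF e f) (y : Pnt o r) :
    ∃ K, TG k f (y.pt k) y.t (u0 o y.t) = (bd o).FF 𝔉.F0.toPre (Fs 𝔉 y.t) k (u0 o y.t) +
      𝔉.F0.incl (k + 1) k _ ∘L K := by
  obtain ⟨g, h1, h2⟩ := he k hk
  have a := adj_rem h
  have H := a.hy o y.ht
  have c := (sb_u0 o h).cb _ y.ht
  refine ⟨iH2 _ (k + 1) o.Pg _ ∘L ((bd o).βH _ (k + 1) (hC o r k (y.pt k)) +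
    ((bd o).βH _ (k + 1)).flip (hC o r k (y.pt k)) + sY o n m (k + 1) ∘L fderiv ℝ g (y.pt k) ∘L
      sC' o r k y.t), ContinuousLinearMap.ext fun x => ?_⟩
  have e1 := a.fderiv_aff (by omega) y h1 h2 hf x
  rw [uy_val h (k := k) (by omega), H.LL_add c (by omega) _ (cb_hC h (by omega) y)] at e1
  simp only [TG, _root_.add_apply, ContinuousLinearMap.comp_apply, e1, H.FF_eq c,
    incl_iH2 k.le_succ, map_add, ContinuousLinearMap.flip_apply]
  abel

theorem cq_row (hk : 4 ≤ k) (y : Pnt o r) : Cq ((bd o).RR 𝔉.F0.toPre (Fs 𝔉 y.t) k (uy y))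
    ((bd o).RR 𝔉.F0.toPre (Fs 𝔉 y.t) k (u0 o y.t)) := by
  have c := cb_hC h (k := k + 3) (by omega) y
  rw [uy_val h (k := k + 3) (by omega)]
  exact cq_RR ((adj_rem h).hy o y.ht) ((sb_u0 o h).cb _ y.ht) _ c

theorem cq_TT (hk : 4 ≤ k) (y : Pnt o r) : Cq (TT k f y) (TG k f (y.pt k) y.t (u0 o y.t)) :=
  ((cq_row h hk y).left _).add (.refl _)

theorem cont_TG (hf : RepF e f) (t : T) (u : M → Cf ι (Fin o.m.N)) :
    ContinuousOn (fun v => TG k f v t u) (o.U r k) :=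
  continuousOn_const.add (continuousOn_const.clm_comp (continuousOn_const.clm_comp
    ((hf.1.continuousOn_fderiv_of_isOpen (Map77.isOpen_U h) (by simp)).clm_comp continuousOn_const)))

theorem exists_add (hk : 3 ≤ k) (y : Pnt o r) (u : Sec I (bd o).pC) : ∃ y' : Pnt o r, y'.t = y.t ∧
    y'.pt k = y.pt k + sC' o r k y.t (𝔉.F0.toH _ _ u) ∧ ∀ x,
      y'.α x = y.α x + fa (SC o (𝔉.Si y.t) x (u.1 x)) ∧
      y'.φ x = y.φ x + fp (SC o (𝔉.Si y.t) x (u.1 x)) := by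
  have r1 := RepT_comp (rep_fH (k := k + 1)) (rep_SH' (k := k + 1) o h y.ht)
  have r2 := RepT_comp (rep_sH (k := k + 1)) (rep_SH' (k := k + 1) o h y.ht)
  refine ⟨⟨y.α + _, y.φ + _, y.z, y.t, add_mem y.hα (Hs_sec h.sup ⟨_, RepT_mem r1 u⟩),
    add_mem y.hφ (Hs_sec h.sup ⟨_, RepT_mem r2 u⟩), y.ht⟩, rfl, C_ext h hk ?_ ?_
      (add_zero _).symm, fun x => ⟨rfl, rfl⟩⟩
  · rw [Pnt.val_α _ hk, Prod.fst_add, val_add, y.val_α hk]
    exact congrArg (y.α + ·) ((congrArg _ (RepT_toH r1 u)).trans (val_toH h.sup (by omega) _)).symm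
  · rw [Pnt.val_φ _ hk, Prod.snd_add, Prod.fst_add, val_add, y.val_φ hk]
    exact congrArg (y.φ + ·) ((congrArg _ (RepT_toH r2 u)).trans (val_toH h.sup (by omega) _)).symm

theorem sm_of_all {V : Type} [NormedAddCommGroup V] [InnerProductSpace ℝ V] [FiniteDimensional ℝ V]
    {p : M → V →L[ℝ] V} {u : M → V} (H : ∀ j, 7 ≤ j → ∃ w : 𝔉.F0.H j p, 𝔉.F0.val j p w = u) :
    Sm I u := by
  refine (Hs_cb h.sup (p := p) fun j hj => ?_).choose_spec.1
  obtain ⟨w, rfl⟩ := H (j + 7) (by omega)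
  exact ⟨_, val_incl h.sup hj (by omega) w⟩

theorem sm_v (he : o.Rp e) (y : Pnt o r) : Sm I (vD e y) ∧ Sm I (vC e y) :=
  ⟨sm_of_all h fun j hj => let ⟨_, hf⟩ := he j hj; ⟨_, (hf.2 y).D⟩,
    sm_of_all h fun j hj => let ⟨_, hf⟩ := he j hj; ⟨_, (hf.2 y).C⟩⟩

/-- points with compact support are dense -/
theorem closure_cpt (hk : 3 ≤ k) (y : Pnt o r) : y.pt k ∈ closure {v | ∃ y' : Pnt o r,
    y'.t = y.t ∧ y'.pt k = v ∧ HasCompactSupport y'.α ∧ HasCompactSupport y'.φ} := by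
  have h2 : Continuous fun z : 𝔉.F0.H (k + 1) o.P1 × 𝔉.F0.H (k + 1) o.Pp =>
      ((z.1, z.2, y.z, y.t) : o.C r k) := by fun_prop
  refine map_mem_closure (f := fun z => ((z.1, z.2, y.z, y.t) : o.C r k)) h2 (((𝔉.F0.dense_toH (k + 1) o.P1).prodMap
    (𝔉.F0.dense_toH (k + 1) o.Pp)) ((y.pt k).1, (y.pt k).2.1)) ?_
  rintro _ ⟨⟨α, φ⟩, rfl⟩
  exact ⟨⟨α, φ, y.z, y.t, Hs_sec h.sup α, Hs_sec h.sup φ, y.ht⟩, rfl, Prod.ext
    (ofV_eq h.sup (by omega) (val_toH h.sup (by omega) α)) (Prod.ext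
      (ofV_eq h.sup (by omega) (val_toH h.sup (by omega) φ)) rfl), α.2.2.1, φ.2.2.1⟩

end tt

/-! ### related bundles -/

section brel
variable {E' : Type} [NormedAddCommGroup E'] [NormedSpace ℝ E'] [FiniteDimensional ℝ E']
  [MeasurableSpace E'] [BorelSpace E']
  {HM' : Type} [TopologicalSpace HM'] {I' : ModelWithCorners ℝ E' HM'} [I'.Boundaryless]
  {M' : Type} [TopologicalSpace M'] [ChartedSpace HM' M'] [IsManifold I' ∞ M']
  [MeasurableSpace M'] [T2Space M'] [BorelSpace M'] [SecondCountableTopology M'] [DecidableEq κ]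

/-- literally related bundles -/
structure BRel (d : Bd M ι κ) (d' : Bd M' ι κ) (φ : OpenPartialHomeomorph M M') : Prop where
  P : ∀ x ∈ φ.source, d.Px x = d'.Px (φ x)
  ρ : ∀ x ∈ φ.source, ∀ a, d.ρ a x = d'.ρ a (φ x)
  g : ∀ x ∈ φ.source, d.g x = d'.g (φ x)
  p1 : ∀ x ∈ φ.source, d.p1 x = d'.p1 (φ x)
  p2 : ∀ x ∈ φ.source, d.p2 x = d'.p2 (φ x)
  sp : ∀ x ∈ φ.source, d.sp x = d'.sp (φ x)
  sm : ∀ x ∈ φ.source, d.sm x = d'.sm (φ x)

namespace BRel
variable {d : Bd M ι κ} {d' : Bd M' ι κ} {φ : OpenPartialHomeomorph M M'} (h : BRel d d' φ)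
  {G : Fr I M ι} {G' : Fr I' M' ι} {u : M → Cf ι κ} {u' : M' → Cf ι κ}
include h

theorem pC (x : M) (hx : x ∈ φ.source) : d.pC x = d'.pC (φ x) := by
  simp only [ps, h.p1 x hx, h.sp x hx]

theorem pE (x : M) (hx : x ∈ φ.source) : d.pE x = d'.pE (φ x) := by
  simp only [ps, h.p2 x hx, h.sm x hx]

theorem pF (x : M) (hx : x ∈ φ.source) : ps d.g d.pE x = ps d'.g d'.pE (φ x) := by
  rw [ps, ps, h.g x hx, h.pE x hx]

theorem d0σ (a : ι) (x : M) (hx : x ∈ φ.source) : (d.d0 G u).σ a x = (d'.d0 G' u').σ a (φ x) := by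
  simp only [Bd.d0, Map77.cut, h.pC x hx, h.g x hx, h.P x hx]

theorem full (i : Iso G.toPre G'.toPre φ) : ORel φ G.toPre G'.toPre (d.full G u) (d'.full G' u') :=
  ⟨i, h.pC, h.pF, fun a x hx => by
    simp only [Bd.full, Map77.pair, Op.adj, h.d0σ (G := G) (G' := G') (u := u) (u' := u') a x hx]
    simp only [Bd.lin, Map77.cut, Bd.σ, h.pC x hx, h.pE x hx, h.P x hx, h.ρ x hx]⟩

theorem row (i : Iso G.toPre G'.toPre φ) {x : M} (hx : x ∈ φ.source) (hu : u x = u' (φ x))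
    {v : M → Cf ι κ} {v' : M' → Cf ι κ} (hv : ∀ᶠ y in 𝓝 x, v y = v' (φ y)) :
    G.op ((d.d0 G u).adj G).σ ((d.d0 G u).adj G).B v x =
      G'.op ((d'.d0 G' u').adj G').σ ((d'.d0 G' u').adj G').B v' (φ x) := by
  have r := Pj41.fRel_of_iso i
  have n := φ.open_source.mem_nhds hx
  have e1 := fun a => r.D (u := fun y => Op.tr ((d.d0 G u).σ a y))
    (u' := fun y => Op.tr ((d'.d0 G' u').σ a y)) hx a (mem_of_superset n fun y hy =>
    congrArg Op.tr (h.d0σ (G := G) (G' := G') (u := u) (u' := u') a y hy))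
  have e2 := fun a => r.D hx a (mem_of_superset n h.g)
  have e3 : (d.d0 G u).B x = (d'.d0 G' u').B (φ x) := by
    simp only [Bd.d0, Map77.cut, h.pC x hx, h.P x hx, hu, e2]
  have e4 : (d.d0 G u).p x = (d'.d0 G' u').p (φ x) := h.g x hx
  simp only [Pre.op, Op.adj, e1, e3, e4, h.d0σ (G := G) (G' := G') (u := u) (u' := u') _ x hx,
    r.D hx _ hv, hv.self_of_nhds, Met55.iso_dv i hx]

end BRel
end brel

/-! ### norms on the cylinder -/

section cyl
variable {E3 : Type} [NormedAddCommGroup E3] [NormedSpace ℝ E3] [FiniteDimensional ℝ E3]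
  [MeasurableSpace E3] [BorelSpace E3]
  {H3 : Type} [TopologicalSpace H3] {I3 : ModelWithCorners ℝ E3 H3} [I3.Boundaryless]
  {Y : Type} [TopologicalSpace Y] [ChartedSpace H3 Y] [IsManifold I3 ∞ Y] [T2Space Y]
  [MeasurableSpace Y] [BorelSpace Y] [SecondCountableTopology Y] [CompactSpace Y]
  {D : YD I3 Y κ lam} {δ : ℝ} {O' : Set (Y × ℝ)}
  {V : Type} [NormedAddCommGroup V] [InnerProductSpace ℝ V] [FiniteDimensional ℝ V]
  {p : Y × ℝ → V →L[ℝ] V} {sg : ℝ} {k : ℕ}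

theorem cb_hcZ (hs : sg = 1 ∨ sg = -1) (c : ℝ) : (famZ T D δ O').F0.Cb fun z => hc sg c z.2 :=
  wt_famZ.toWtP.Cb.2 ⟨_, (bd_hc.choose_spec _ c hs).cyl _⟩

theorem norm_hcZ (hs : sg = 1 ∨ sg = -1) (c : ℝ) :
    ‖smulH (famZ T D δ O').F0.toPre k p fun z => hc sg c z.2‖ ≤
      cK (Option κ) k * |bd_hc.choose k| :=
  have h := wt_famZ.toWtP.CBs.2 ((bd_hc.choose_spec _ c hs).cyl D.F.toPre)
  (rep_smulH' (F := (famZ T D δ O').F0.toPre) h.1 (h.2 k)).2

theorem norm_le_NE (h : (famZ T D δ O').OK) (hs : sg = 1 ∨ sg = -1) (hk : 4 ≤ k) {ε : ℝ}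
    (hε : 0 < ε) : ∃ η : ℝ≥0∞, 0 < η ∧ ∀ a c : ℝ, a < c → 1 ≤ c →
      ∀ (u : (famZ T D δ O').F0.H k p) (w : Y × ℝ → V), Sm (IC I3) ((famZ T D δ O').F0.val k p u) →
      (∀ z : Y × ℝ, c - 1 < sg * z.2 → (famZ T D δ O').F0.val k p u z = w z) →
      NE D δ sg a k w ≤ η → ‖smulH _ k p (fun z => hc sg c z.2) u‖ ≤ ε := by
  obtain ⟨C, hC⟩ := bd_hc
  set K : ℝ := (2 * Fintype.card (Option κ) + 3) ^ k * C k ^ 2
  have K0 : 0 ≤ K := by positivity
  refine ⟨ENNReal.ofReal (ε ^ 2 / (K + 1)), by simp; positivity, fun a c ha h1 u w hu e hw => ?_⟩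
  have b := (hC _ c hs).cyl D.F.toPre
  have s := b.1.smul hu
  have i := (Is.val h.sup hk u).smulH (cb_hcZ hs c)
  have mA : MeasurableSet {z : Y × ℝ | c ≤ sg * z.2} :=
    (isClosed_le continuous_const (by fun_prop)).measurableSet
  have h2 := (Gl67.N_supp (A := {z : Y × ℝ | c ≤ sg * z.2}) ((tsupport_smul_subset_left
    (fun z : Y × ℝ => hc sg c z.2) ((famZ T D δ O').F0.val k p u)).trans
    (closure_minimal (fun _ hx => by_contra fun e => hx (hc_zero (not_le.1 e).le))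
      (isClosed_le continuous_const (by fun_prop))))).symm.trans
    (Gl67.N_eq wt_famZ.toWtP (i.FL s))
  have h3 := h2 ▸ (Gl67.N_smul mA b.1 (b.2 k) hu).trans (mul_le_mul_right (((Gl67.N_wt' mA
    (g' := fun x : Y × ℝ => δ * (sg * x.2)) fun z hz => (congrArg _ (ab_eq hs (h1.trans hz))).le).trans
    ((Gl67.N_congr (v := w) mA fun z hz => mem_of_superset ((isOpen_lt continuous_const
      (by fun_prop : Continuous fun z : Y × ℝ => sg * z.2)).mem_nhds
        ((sub_one_lt c).trans_le hz)) e).le.trans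
      (Gl67.N_mono fun z hz => ha.trans_le hz))).trans hw) _)
  rw [← ENNReal.ofReal_mul K0, ENNReal.ofReal_le_ofReal_iff (by positivity)] at h3
  rw [i.norm s]
  refine nrm_le_of_sq hε.le (h3.trans ?_)
  rw [← mul_div_assoc, div_le_iff₀ (by positivity)]
  nlinarith [sq_nonneg ε]

end cyl

end Crest.Agent.X212.Nk89
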